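import Mathlib

/-!
# Quiver gauge theories: the Coulomb branch algebra and the torus-fixed points of the
Nakajima quiver variety (problem P291)

All definitions are for an arbitrary finite quiver and arbitrary dimension vectors, and for the
full flavour torus `F`, one coordinate for every arrow and every framing direction.
-/

namespace Vale.Agent.P291.Quiver

/-- A finite quiver with vertex set `I`, arrow set `E` (an arrow `e` goes from `s e` to `t e`),
gauge dimensions `v` and framing dimensions `w`. -/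
structure QData (I E : Type) where
  /-- source -/
  s : E → I
  /-- target -/
  t : E → I
  /-- gauge dimensions `v i = dim V_i` -/
  v : I → ℕ
  /-- framing dimensions `w i = dim W_i` -/
  w : I → ℕ

namespace QData

variable {I E : Type} [Fintype I] [DecidableEq I] [Fintype E] [DecidableEq E] (Q : QData I E)

/-- Index set of the coordinates `a_{i,r}` of the maximal torus `T` of `G = ∏ GL(V_i)`; it is also
the standard basis of `V = ⊕ V_i`. -/
abbrev Col : Type := Σ i : I, Fin (Q.v i)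

/-- Index set of the standard basis of `⊕ W_i`. -/
abbrev Frm : Type := Σ i : I, Fin (Q.w i)

/-- Index set of the coordinates of the full flavour torus `F`: a mass `m_e` for every arrow and a
mass `c_{i,l}` for every framing direction. -/
abbrev Fl : Type := E ⊕ Q.Frm

/-- `H^*_F(pt)`, the polynomial ring in the flavour parameters. -/
def Lam : Type := MvPolynomial Q.Fl ℂ

noncomputable instance : CommRing Q.Lam := AddMonoidAlgebra.commRing

instance : IsDomain Q.Lam := (inferInstance : IsDomain (MvPolynomial Q.Fl ℂ))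

/-- The coordinate of `H^*_F(pt)` with index `k`. -/
noncomputable def mass (k : Q.Fl) : Q.Lam := (MvPolynomial.X k : MvPolynomial Q.Fl ℂ)

/-- `H^*_{T × F}(pt)`, the polynomial ring over `H^*_F(pt)` in the coordinates of `T`. -/
def SS : Type := MvPolynomial Q.Col Q.Lam

noncomputable instance : CommRing Q.SS := AddMonoidAlgebra.commRing

instance : IsDomain Q.SS := (inferInstance : IsDomain (MvPolynomial Q.Col Q.Lam))

/-- The coordinate `a_c` of `T`. -/
noncomputable def av (c : Q.Col) : Q.SS := (MvPolynomial.X c : MvPolynomial Q.Col Q.Lam)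

/-- The flavour parameter with index `k` as an element of `H^*_{T × F}(pt)`. -/
noncomputable def mv (k : Q.Fl) : Q.SS :=
  (MvPolynomial.C (Q.mass k) : MvPolynomial Q.Col Q.Lam)

/-- The Weyl group of `G`. -/
abbrev Wy : Type := ∀ i : I, Equiv.Perm (Fin (Q.v i))

/-- The Weyl group permutes the torus coordinates. -/
def act (σ : Q.Wy) : Equiv.Perm Q.Col := Equiv.sigmaCongrRight σ

/-- The action of the Weyl group on `H^*_{T × F}(pt)`. -/
noncomputable def perm (σ : Q.Wy) : Q.SS →+* Q.SS :=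
  (MvPolynomial.rename (Q.act σ) :
    MvPolynomial Q.Col Q.Lam →ₐ[Q.Lam] MvPolynomial Q.Col Q.Lam).toRingHom

/-- The Weyl group invariants in `H^*_{T × F}(pt)`. -/
noncomputable def inv : Subring Q.SS := ⨅ σ : Q.Wy, RingHom.eqLocus (Q.perm σ) (RingHom.id Q.SS)

/-- `R = H^*_{G × F}(pt)`, the ring of Weyl group invariants in `H^*_{T × F}(pt)`. -/
def RR : Type := Q.inv

noncomputable instance : CommRing Q.RR := Subring.toCommRing Q.inv

/-- The inclusion of `R` into `H^*_{T × F}(pt)`. -/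
noncomputable def toSS : Q.RR →+* Q.SS := Q.inv.subtype

/-- The factor of the abelianized monopole operator of the cocharacter `lam` of `T`:
`∏ ξ ^ max (0, -⟨ξ, lam⟩)` over the weights `ξ` of `N`, which are `a_{t e, p} - a_{s e, r} + m_e`
for every arrow `e` and `c_{i,l} - a_{i,r}` for every framing direction. -/
noncomputable def rc (lam : Q.Col → ℤ) : Q.SS :=
  (∏ e : E, ∏ p : Fin (Q.v (Q.t e)), ∏ r : Fin (Q.v (Q.s e)),
      (Q.av ⟨Q.t e, p⟩ - Q.av ⟨Q.s e, r⟩ + Q.mv (Sum.inl e)) ^
        (-(lam ⟨Q.t e, p⟩ - lam ⟨Q.s e, r⟩)).toNat) *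
    ∏ i : I, ∏ r : Fin (Q.v i), ∏ l : Fin (Q.w i),
      (Q.mv (Sum.inr ⟨i, l⟩) - Q.av ⟨i, r⟩) ^ (-(-lam ⟨i, r⟩)).toNat

/-- `∏ (a_c - a_d)` over `c` in `S` and `d` outside `S` at the same vertex. -/
noncomputable def eu (S : Finset Q.Col) : Q.SS :=
  ∏ c ∈ S, ∏ d ∈ Finset.univ.filter (fun d => d.1 = c.1 ∧ d ∉ S), (Q.av c - Q.av d)

/-- The field of fractions of `H^*_{T × F}(pt)`. -/
def KK : Type := FractionRing Q.SS

noncomputable instance : Field Q.KK := FractionRing.field Q.SS

/-- The inclusion of `H^*_{T × F}(pt)` into its field of fractions. -/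
noncomputable def toKK : Q.SS →+* Q.KK := (algebraMap Q.SS (FractionRing Q.SS) :)

/-- The group algebra of the cocharacter lattice `ℤ^Col` of `T` over that field: the localized
Coulomb branch algebra of the torus. -/
def Lau : Type := AddMonoidAlgebra Q.KK (Q.Col → ℤ)

noncomputable instance : CommRing Q.Lau := AddMonoidAlgebra.commRing

/-- The monomial `x u^lam`. -/
noncomputable def single (lam : Q.Col → ℤ) (x : Q.KK) : Q.Lau :=
  (AddMonoidAlgebra.single lam x : AddMonoidAlgebra Q.KK (Q.Col → ℤ))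

/-- The coefficient of `u^lam`. -/
noncomputable def coeff (x : Q.Lau) (lam : Q.Col → ℤ) : Q.KK :=
  AddMonoidAlgebra.coeff (x : AddMonoidAlgebra Q.KK (Q.Col → ℤ)) lam

/-- The inclusion of `H^*_{T × F}(pt)` as the multiples of `u^0`. -/
noncomputable def toLau : Q.SS →+* Q.Lau :=
  ((AddMonoidAlgebra.singleZeroRingHom : Q.KK →+* AddMonoidAlgebra Q.KK (Q.Col → ℤ)).comp Q.toKK :)

/-- The cocharacter `n · 1_S`. -/
def ind (n : ℤ) (S : Finset Q.Col) : Q.Col → ℤ := fun c => if c ∈ S then n else 0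

/-- The dressed minuscule monopole operator of the cocharacter `n · 1_S` (used for `n = ± 1`) with
dressing `f`, abelianized: `∑_{σ ∈ W} σ (f · r^{n 1_S} / ∏_{c ∈ S, d ∉ S} (a_c - a_d))`. -/
noncomputable def mon (n : ℤ) (S : Finset Q.Col) (f : Q.SS) : Q.Lau :=
  ∑ σ : Q.Wy, Q.single (Q.ind n (S.map (Q.act σ).toEmbedding))
    (Q.toKK (Q.perm σ f * Q.rc (Q.ind n (S.map (Q.act σ).toEmbedding))) /
      Q.toKK (Q.eu (S.map (Q.act σ).toEmbedding)))

/-- The subring of the localized algebra generated by `R` and the dressed minuscule monopole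
operators of all cocharacters `± 1_S`. -/
noncomputable def alg : Subring Q.Lau :=
  Subring.closure ({x | ∃ r : Q.RR, x = Q.toLau (Q.toSS r)} ∪
    {x | ∃ (S : Finset Q.Col) (f : Q.SS), x = Q.mon 1 S f ∨ x = Q.mon (-1) S f})

/-- The Coulomb branch algebra `A_F`. -/
def AF : Type := Q.alg

noncomputable instance : CommRing Q.AF := Subring.toCommRing Q.alg

/-- The inclusion of `A_F` into the localized algebra. -/
noncomputable def val : Q.AF →+* Q.Lau := Q.alg.subtype

/-- The inclusion of `R` into `A_F`. -/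
noncomputable def toAF : Q.RR →+* Q.AF :=
  (Q.toLau.comp Q.toSS).codRestrict Q.alg (fun r => Subring.subset_closure (Or.inl ⟨r, rfl⟩))

/-- The `ν`-weight of a cocharacter: `ν` paired with its topological charge. -/
def nuWt (ν : I → ℤ) (lam : Q.Col → ℤ) : ℤ := ∑ c : Q.Col, ν c.1 * lam c

/-- The ideal of `A_F` generated by all homogeneous elements of nonzero `ν`-weight. -/
noncomputable def J (ν : I → ℤ) : Ideal Q.AF :=
  Ideal.span {x | ∃ m : ℤ, m ≠ 0 ∧
    ∀ lam : Q.Col → ℤ, Q.coeff (Q.val x) lam ≠ 0 → Q.nuWt ν lam = m}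

/-- The coordinate ring `ℂ[Y^ν] = A_F ⧸ J ν` of the scheme-theoretic fixed locus. -/
def CY (ν : I → ℤ) : Type := Q.AF ⧸ Q.J ν

noncomputable instance (ν : I → ℤ) : CommRing (Q.CY ν) := Ideal.Quotient.commRing (Q.J ν)

/-- The map from `R` to the coordinate ring of the fixed locus. -/
noncomputable def phiC (ν : I → ℤ) : Q.RR →+* Q.CY ν := (Ideal.Quotient.mk (Q.J ν)).comp Q.toAF

/-- A point of `N ⊕ N^*`: arrows `B e : V_{s e} → V_{t e}` and `Bs e : V_{t e} → V_{s e}`,
`out : V_i → W_i` and `inn : W_i → V_i`, written as matrices on `V = ⊕ V_i` and `⊕ W_i`. -/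
structure Rep where
  /-- the arrows -/
  B : E → Matrix Q.Col Q.Col ℂ
  /-- the reversed arrows -/
  Bs : E → Matrix Q.Col Q.Col ℂ
  /-- the maps to the framing -/
  out : Matrix Q.Frm Q.Col ℂ
  /-- the maps from the framing -/
  inn : Matrix Q.Col Q.Frm ℂ
  hB : ∀ e c d, B e c d ≠ 0 → c.1 = Q.t e ∧ d.1 = Q.s e
  hBs : ∀ e c d, Bs e c d ≠ 0 → c.1 = Q.s e ∧ d.1 = Q.t e
  hout : ∀ l c, out l c ≠ 0 → l.1 = c.1
  hinn : ∀ c l, inn c l ≠ 0 → l.1 = c.1

/-- The moment map. -/
noncomputable def Rep.moment {Q : QData I E} (x : Q.Rep) : Matrix Q.Col Q.Col ℂ :=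
  ∑ e, (x.B e * x.Bs e - x.Bs e * x.B e) - x.inn * x.out

/-- The projection of `V` to `V_i`. -/
def pr (i : I) : (Q.Col → ℂ) →ₗ[ℂ] (Q.Col → ℂ) where
  toFun u := fun c => if c.1 = i then u c else 0
  map_add' := by
    intro u u'
    funext c
    by_cases h : c.1 = i <;> simp [h]
  map_smul' := by
    intro a u
    funext c
    by_cases h : c.1 = i <;> simp [h]

/-- A subrepresentation: a vertex-graded subspace of `V` preserved by all arrows. -/
structure Rep.IsSub {Q : QData I E} (x : Q.Rep) (S : Submodule ℂ (Q.Col → ℂ)) : Prop where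
  graded : ∀ i, ∀ u ∈ S, Q.pr i u ∈ S
  B : ∀ e, ∀ u ∈ S, (x.B e).mulVec u ∈ S
  Bs : ∀ e, ∀ u ∈ S, (x.Bs e).mulVec u ∈ S

/-- `∑ ν_i dim S_i`. -/
noncomputable def dimNu (ν : I → ℤ) (S : Submodule ℂ (Q.Col → ℂ)) : ℤ :=
  ∑ i, ν i * (Module.finrank ℂ (S.map (Q.pr i)) : ℤ)

/-- King stability of a framed representation with respect to `ν`. -/
def Rep.Stable {Q : QData I E} (ν : I → ℤ) (x : Q.Rep) : Prop :=
  (∀ S, x.IsSub S → (∀ u ∈ S, x.out.mulVec u = 0) → S ≠ ⊥ → 0 < Q.dimNu ν S) ∧
  (∀ S, x.IsSub S → (∀ y, x.inn.mulVec y ∈ S) → S ≠ ⊤ →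
    (∑ i, ν i * (Q.v i : ℤ)) - Q.dimNu ν S < 0)

/-- `ν` is generic: it pairs nontrivially with every nonzero `β ≤ v`. -/
def Generic (ν : I → ℤ) : Prop :=
  ∀ β : I → ℕ, (∀ i, β i ≤ Q.v i) → β ≠ 0 → ∑ i, ν i * (β i : ℤ) ≠ 0

/-- The character of `F` with exponent one in coordinate `k`. -/
def chr (k : Q.Fl) : Q.Fl → ℤ := Pi.single k 1

/-- `a : Col → X^*(F)` is the weight of an `F`-fixed point of the quiver variety `X`: some
`ν`-stable point of the zero fibre of the moment map is fixed by `F` acting through the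
cocharacter `a` of `T`, that is, each of its nonzero coordinates has weight zero. -/
def FixedWt (ν : I → ℤ) (a : Q.Col → Q.Fl → ℤ) : Prop :=
  ∃ x : Q.Rep, x.moment = 0 ∧ x.Stable ν ∧
    (∀ e c d, x.B e c d ≠ 0 → a c - a d + Q.chr (Sum.inl e) = 0) ∧
    (∀ e d c, x.Bs e d c ≠ 0 → a c - a d + Q.chr (Sum.inl e) = 0) ∧
    (∀ l c, x.out l c ≠ 0 → Q.chr (Sum.inr l) - a c = 0) ∧
    (∀ c l, x.inn c l ≠ 0 → Q.chr (Sum.inr l) - a c = 0)

/-- The linear form in `H^2_F(pt)` of a character. -/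
noncomputable def lin (χ : Q.Fl → ℤ) : Q.Lam := ∑ k, (χ k : Q.Lam) * Q.mass k

/-- Restriction to the fixed point of weight `a`: substitute `a_c` for the variable of `c`. -/
noncomputable def ev (a : Q.Col → Q.Fl → ℤ) : Q.SS →+* Q.Lam :=
  (MvPolynomial.eval (fun c => Q.lin (a c)) : MvPolynomial Q.Col Q.Lam →+* Q.Lam)

/-- The ideal of classes in `R` that restrict to zero at every `F`-fixed point of `X`. -/
noncomputable def kerH (ν : I → ℤ) : Ideal Q.RR :=
  sInf {K | ∃ a, Q.FixedWt ν a ∧ K = RingHom.ker ((Q.ev a).comp Q.toSS)}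

end QData

end Vale.Agent.P291.Quiver
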